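import Vale.Agent.P046.Const.Main

/-!
Random triangle removal: the leave is asymptotic to n^(3/2) / (2 sqrt 2), in probability and in
mean.
-/

namespace Vale.Agent.Results.P046.LeaveConstant

open Finset Filter Topology Vale.Agent.P046

theorem result :
    (∀ ε : ℝ, 0 < ε → Tendsto
      (fun n : ℕ => procVal (fun B : Finset (Finset (Fin n)) =>
          if ε * (n : ℝ) ^ ((3 : ℝ) / 2)
              < |(B.card : ℝ) - (n : ℝ) ^ ((3 : ℝ) / 2) / (2 * Real.sqrt 2)| then 1 else 0)
        ((univ : Finset (Fin n)).powersetCard 2))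
      atTop (𝓝 0)) ∧
    Tendsto
      (fun n : ℕ => expLeave ((univ : Finset (Fin n)).powersetCard 2) / (n : ℝ) ^ ((3 : ℝ) / 2))
      atTop (𝓝 (1 / (2 * Real.sqrt 2))) :=
  Const.const_limit

end Vale.Agent.Results.P046.LeaveConstant
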